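import Vale.Agent.Lib.P348.helper23.Basics

/-!
The commutator of the ring Hamiltonian with one raising operator is bounded:
`nsq ((ringH L * raise j - raise j * ringH L) *ᵥ Ω) ≤ 32 * nsq Ω`.
Also the two one-site bounds this needs (`nsq_raise_le`, `nsq_siteZ_le`), proved here.
-/

namespace Vale.Agent.Lib.P348.H33

open Matrix

open Vale.Agent.Lib.P361 Vale.Agent.Lib.P348

/-- The Euclidean norm of a vector. -/
noncomputable def nrm {n : Type*} [Fintype n] (ψ : n → ℂ) : ℝ := ‖WithLp.toLp 2 ψ‖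

theorem nrm_eq {n : Type*} [Fintype n] (ψ : n → ℂ) : nrm ψ = ‖WithLp.toLp 2 ψ‖ := rfl

theorem nrm_nonneg {n : Type*} [Fintype n] (ψ : n → ℂ) : 0 ≤ nrm ψ := norm_nonneg _

theorem nrm_sq {n : Type*} [Fintype n] (ψ : n → ℂ) : nrm ψ ^ 2 = nsq ψ := by
  rw [nrm_eq, nsq_def, EuclideanSpace.norm_sq_eq]

theorem nrm_add {n : Type*} [Fintype n] (φ ψ : n → ℂ) : nrm (φ + ψ) ≤ nrm φ + nrm ψ := by
  rw [nrm_eq, nrm_eq, nrm_eq, WithLp.toLp_add]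
  exact norm_add_le _ _

theorem nrm_sub {n : Type*} [Fintype n] (φ ψ : n → ℂ) : nrm (φ - ψ) ≤ nrm φ + nrm ψ := by
  rw [nrm_eq, nrm_eq, nrm_eq, WithLp.toLp_sub]
  exact norm_sub_le _ _

theorem nrm_neg {n : Type*} [Fintype n] (ψ : n → ℂ) : nrm (-ψ) = nrm ψ := by
  rw [nrm_eq, nrm_eq, WithLp.toLp_neg, norm_neg]

theorem nrm_smul {n : Type*} [Fintype n] (c : ℂ) (ψ : n → ℂ) : nrm (c • ψ) = ‖c‖ * nrm ψ := by
  rw [nrm_eq, nrm_eq, WithLp.toLp_smul, norm_smul]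

theorem nrm_sum {n : Type*} [Fintype n] {κ : Type*} (s : Finset κ) (f : κ → n → ℂ) :
    nrm (∑ i ∈ s, f i) ≤ ∑ i ∈ s, nrm (f i) := by
  rw [nrm_eq, WithLp.toLp_sum]
  exact norm_sum_le _ _

theorem nrm_le_of_nsq_le {n m : Type*} [Fintype n] [Fintype m] (φ : n → ℂ) (ψ : m → ℂ) (c : ℝ)
    (hc : 0 ≤ c) (h : nsq φ ≤ c ^ 2 * nsq ψ) : nrm φ ≤ c * nrm ψ := by
  have h0 : 0 ≤ c * nrm ψ := mul_nonneg hc (nrm_nonneg ψ)
  refine (pow_le_pow_iff_left₀ (nrm_nonneg φ) h0 two_ne_zero).mp ?_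
  rw [mul_pow, nrm_sq, nrm_sq]
  exact h

/-- The cyclic shift of the spin at one site, a bijection of the configurations. -/
def shiftAt {L : ℕ} (j : Fin L) : (Fin L → Fin 3) ≃ (Fin L → Fin 3) where
  toFun σ := Function.update σ j (σ j + 1)
  invFun σ := Function.update σ j (σ j - 1)
  left_inv σ := by simp
  right_inv σ := by simp

theorem shiftAt_apply {L : ℕ} (j : Fin L) (σ : Fin L → Fin 3) :
    shiftAt j σ = Function.update σ j (σ j + 1) := rfl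

theorem spinPlus_three (s k : Fin 3) :
    spinPlus 3 s k = if (k : ℕ) = (s : ℕ) + 1 then
      ((Real.sqrt ((((s : ℕ) : ℝ) + 1) * (((3 : ℕ) : ℝ) - 1 - ((s : ℕ) : ℝ))) : ℝ) : ℂ) else 0 :=
  rfl

theorem spinPlus_three_zero (s k : Fin 3) (hk : k ≠ s + 1) : spinPlus 3 s k = 0 := by
  rw [spinPlus_three, if_neg]
  revert hk
  revert s k
  decide

theorem spinPlus_three_norm (s k : Fin 3) : ‖spinPlus 3 s k‖ ^ 2 ≤ 2 := by
  rw [spinPlus_three]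
  split_ifs with h
  · rw [Complex.norm_real, Real.norm_eq_abs, sq_abs]
    have hs : ((s : ℕ) : ℝ) ≤ 2 := by
      have : (s : ℕ) ≤ 2 := by omega
      exact_mod_cast this
    have hs0 : (0 : ℝ) ≤ ((s : ℕ) : ℝ) := Nat.cast_nonneg _
    have hx : (0 : ℝ) ≤ (((s : ℕ) : ℝ) + 1) * (((3 : ℕ) : ℝ) - 1 - ((s : ℕ) : ℝ)) := by
      apply mul_nonneg
      · linarith
      · push_cast
        linarith
    rw [Real.sq_sqrt hx]
    have h3 : (s : ℕ) = 0 ∨ (s : ℕ) = 1 ∨ (s : ℕ) = 2 := by omega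
    rcases h3 with h3 | h3 | h3 <;> rw [h3] <;> norm_num
  · simp

/-- One-site bound for the raising operator. -/
theorem nsq_raise_le {L : ℕ} (j : Fin L) (ψ : (Fin L → Fin 3) → ℂ) :
    nsq (raise j *ᵥ ψ) ≤ 2 * nsq ψ := by
  rw [nsq_def, nsq_def, raise_def, ← Equiv.sum_comp (shiftAt j) (fun τ => ‖ψ τ‖ ^ 2),
    Finset.mul_sum]
  apply Finset.sum_le_sum
  intro σ _
  have h : (siteOp j (spinPlus 3) *ᵥ ψ) σ =
      spinPlus 3 (σ j) (σ j + 1) * ψ (Function.update σ j (σ j + 1)) := by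
    rw [siteOp_mulVec, Finset.sum_eq_single (σ j + 1)]
    · intro k _ hk
      rw [spinPlus_three_zero _ _ hk, zero_mul]
    · intro h
      exact absurd (Finset.mem_univ _) h
  rw [h, norm_mul, mul_pow, shiftAt_apply]
  exact mul_le_mul_of_nonneg_right (spinPlus_three_norm _ _) (sq_nonneg _)

/-- One-site bound for the third component of the spin. -/
theorem nsq_siteZ_le {L : ℕ} (j : Fin L) (ψ : (Fin L → Fin 3) → ℂ) :
    nsq (siteOp j (spinZ 3) *ᵥ ψ) ≤ nsq ψ := by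
  rw [nsq_def, nsq_def]
  apply Finset.sum_le_sum
  intro σ _
  have hz : spinZ 3 =
      diagonal fun i : Fin 3 => (((((3 : ℕ) : ℝ) - 1) / 2 - ((i : ℕ) : ℝ) : ℝ) : ℂ) := rfl
  have h : (siteOp j (spinZ 3) *ᵥ ψ) σ =
      (((((3 : ℕ) : ℝ) - 1) / 2 - (((σ j : Fin 3) : ℕ) : ℝ) : ℝ) : ℂ) * ψ σ := by
    rw [hz, siteOp_diagonal, Matrix.mulVec_diagonal]
  rw [h, norm_mul, mul_pow, Complex.norm_real, Real.norm_eq_abs, sq_abs]
  have h3 : ((σ j : Fin 3) : ℕ) = 0 ∨ ((σ j : Fin 3) : ℕ) = 1 ∨ ((σ j : Fin 3) : ℕ) = 2 := by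
    omega
  have h1 : ((((3 : ℕ) : ℝ) - 1) / 2 - (((σ j : Fin 3) : ℕ) : ℝ)) ^ 2 ≤ 1 := by
    rcases h3 with h3 | h3 | h3 <;> rw [h3] <;> norm_num
  calc ((((3 : ℕ) : ℝ) - 1) / 2 - (((σ j : Fin 3) : ℕ) : ℝ)) ^ 2 * ‖ψ σ‖ ^ 2
      ≤ 1 * ‖ψ σ‖ ^ 2 := mul_le_mul_of_nonneg_right h1 (sq_nonneg _)
    _ = ‖ψ σ‖ ^ 2 := one_mul _

theorem nrm_raise_le {L : ℕ} (j : Fin L) (ψ : (Fin L → Fin 3) → ℂ) :
    nrm (cSp 3 j *ᵥ ψ) ≤ Real.sqrt 2 * nrm ψ := by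
  apply nrm_le_of_nsq_le _ _ _ (Real.sqrt_nonneg 2)
  rw [Real.sq_sqrt (by norm_num : (0 : ℝ) ≤ 2)]
  have h := nsq_raise_le j ψ
  rw [raise_def] at h
  exact h

theorem nrm_siteZ_le {L : ℕ} (j : Fin L) (ψ : (Fin L → Fin 3) → ℂ) :
    nrm (cSz 3 j *ᵥ ψ) ≤ nrm ψ := by
  have h := nrm_le_of_nsq_le (cSz 3 j *ᵥ ψ) ψ 1 zero_le_one
    (by rw [one_pow, one_mul]; exact nsq_siteZ_le j ψ)
  rw [one_mul] at h
  exact h

theorem nrm_Fop_le {L : ℕ} (x y : Fin L) (Ω : (Fin L → Fin 3) → ℂ) :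
    nrm (Fop (cSp 3) (cSz 3) x y *ᵥ Ω) ≤ 2 * Real.sqrt 2 * nrm Ω := by
  have h : Fop (cSp (Λ := Fin L) 3) (cSz 3) x y *ᵥ Ω =
      cSz 3 x *ᵥ (cSp 3 y *ᵥ Ω) - cSp 3 x *ᵥ (cSz 3 y *ᵥ Ω) := by
    rw [Matrix.mulVec_mulVec, Matrix.mulVec_mulVec, ← Matrix.sub_mulVec]
    rfl
  rw [h]
  have h1 : nrm (cSz 3 x *ᵥ (cSp 3 y *ᵥ Ω)) ≤ Real.sqrt 2 * nrm Ω :=
    (nrm_siteZ_le x _).trans (nrm_raise_le y Ω)
  have h2 : nrm (cSp 3 x *ᵥ (cSz 3 y *ᵥ Ω)) ≤ Real.sqrt 2 * nrm Ω :=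
    (nrm_raise_le x _).trans
      (mul_le_mul_of_nonneg_left (nrm_siteZ_le y Ω) (Real.sqrt_nonneg 2))
  have h3 := nrm_sub (cSz 3 x *ᵥ (cSp 3 y *ᵥ Ω)) (cSp 3 x *ᵥ (cSz 3 y *ᵥ Ω))
  linarith

theorem raise_eq_Cop {L : ℕ} (j : Fin L) :
    raise j = Cop (cSp (Λ := Fin L) 3) (Pi.single j (1 : ℂ)) := by
  have h : Cop (cSp (Λ := Fin L) 3) (Pi.single j (1 : ℂ)) =
      ∑ w, (Pi.single j (1 : ℂ) : Fin L → ℂ) w • cSp 3 w := rfl
  rw [h, Finset.sum_eq_single j, Pi.single_eq_same, one_smul, raise_def]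
  · rfl
  · intro w _ hw
    rw [Pi.single_eq_of_ne hw, zero_smul]
  · intro h
    exact absurd (Finset.mem_univ _) h

theorem ringH_eq_bond (L : ℕ) :
    ringH L = ∑ i : Fin L, bond (cSp 3) (cSz 3) i (finRotate L i) := by
  rw [defs_aux_ringH]
  exact Finset.sum_congr rfl fun i _ => spinDot_eq_bond 3 i (finRotate L i)

theorem comm_eq {L : ℕ} (j : Fin L) :
    ringH L * raise j - raise j * ringH L =
      -∑ i : Fin L, ((Pi.single j (1 : ℂ) : Fin L → ℂ) i -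
        (Pi.single j (1 : ℂ) : Fin L → ℂ) (finRotate L i)) •
          Fop (cSp 3) (cSz 3) i (finRotate L i) := by
  have h1 : ringH L * raise j - raise j * ringH L = -cm (raise j) (ringH L) := by
    have : cm (raise j) (ringH L) = raise j * ringH L - ringH L * raise j := rfl
    rw [this, neg_sub]
  rw [h1, raise_eq_Cop, ringH_eq_bond, cm_sum_right]
  congr 1
  exact Finset.sum_congr rfl fun i _ =>
    (spinSys (Λ := Fin L) 3).cm_C_bond (Pi.single j (1 : ℂ)) i (finRotate L i)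

theorem sum_norm_single {L : ℕ} (j : Fin L) :
    ∑ i : Fin L, ‖(Pi.single j (1 : ℂ) : Fin L → ℂ) i‖ = 1 := by
  rw [Finset.sum_eq_single j, Pi.single_eq_same, norm_one]
  · intro w _ hw
    rw [Pi.single_eq_of_ne hw, norm_zero]
  · intro h
    exact absurd (Finset.mem_univ _) h

theorem nrm_comm_le {L : ℕ} (j : Fin L) (Ω : (Fin L → Fin 3) → ℂ) :
    nrm ((ringH L * raise j - raise j * ringH L) *ᵥ Ω) ≤ 4 * Real.sqrt 2 * nrm Ω := by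
  have hB : (0 : ℝ) ≤ 2 * Real.sqrt 2 * nrm Ω :=
    mul_nonneg (mul_nonneg zero_le_two (Real.sqrt_nonneg 2)) (nrm_nonneg Ω)
  rw [comm_eq, Matrix.neg_mulVec, nrm_neg, Matrix.sum_mulVec]
  refine (nrm_sum _ _).trans ?_
  have hterm : ∀ i : Fin L,
      nrm ((((Pi.single j (1 : ℂ) : Fin L → ℂ) i -
        (Pi.single j (1 : ℂ) : Fin L → ℂ) (finRotate L i)) •
          Fop (cSp 3) (cSz 3) i (finRotate L i)) *ᵥ Ω) ≤
      (‖(Pi.single j (1 : ℂ) : Fin L → ℂ) i‖ +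
        ‖(Pi.single j (1 : ℂ) : Fin L → ℂ) (finRotate L i)‖) *
          (2 * Real.sqrt 2 * nrm Ω) := by
    intro i
    rw [Matrix.smul_mulVec, nrm_smul]
    exact mul_le_mul (norm_sub_le _ _) (nrm_Fop_le _ _ Ω) (nrm_nonneg _)
      (add_nonneg (norm_nonneg _) (norm_nonneg _))
  refine (Finset.sum_le_sum fun i _ => hterm i).trans ?_
  rw [← Finset.sum_mul, Finset.sum_add_distrib,
    Equiv.sum_comp (finRotate L) (fun i => ‖(Pi.single j (1 : ℂ) : Fin L → ℂ) i‖),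
    sum_norm_single]
  linarith

/-- The commutator of the ring Hamiltonian with one raising operator is bounded. -/
theorem nsq_comm_le {L : ℕ} (j : Fin L) (Ω : (Fin L → Fin 3) → ℂ) :
    nsq ((ringH L * raise j - raise j * ringH L) *ᵥ Ω) ≤ 32 * nsq Ω := by
  have h := nrm_comm_le j Ω
  have h0 := nrm_nonneg ((ringH L * raise j - raise j * ringH L) *ᵥ Ω)
  have h2 : nrm ((ringH L * raise j - raise j * ringH L) *ᵥ Ω) ^ 2 ≤
      (4 * Real.sqrt 2 * nrm Ω) ^ 2 := pow_le_pow_left₀ h0 h 2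
  rw [nrm_sq, mul_pow, mul_pow, Real.sq_sqrt (by norm_num : (0 : ℝ) ≤ 2), nrm_sq] at h2
  linarith

end Vale.Agent.Lib.P348.H33
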